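import Mathlib

namespace Vale.Agent.Lib.P336

/-- An OR-AND-OR circuit on the variables `x 0, ..., x (n - 1)`.
A literal is a pair `(i, b)`; it is true at the input `x` iff `x i = b`, so `(i, true)` is the
variable `x i` and `(i, false)` is its negation.
`bottom` is the set of bottom OR gates, each given by the set of literals it reads;
`middle` is the set of middle AND gates, each given by the set of bottom gates it reads;
the single top OR gate reads all the middle gates. -/
structure Circuit (n : ℕ) where
  bottom : Finset (Finset (Fin n × Bool))
  middle : Finset (Finset (Finset (Fin n × Bool)))
  wired : ∀ m ∈ middle, m ⊆ bottom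

/-- The value of the circuit at the input `x`: some middle AND gate has all of its bottom OR
gates true, a bottom OR gate being true iff one of its literals is true. -/
def Circuit.eval {n : ℕ} (C : Circuit n) (x : Fin n → Bool) : Prop :=
  ∃ m ∈ C.middle, ∀ c ∈ m, ∃ l ∈ c, x l.1 = l.2

/-- The total number of gates: the bottom gates, the middle gates and the top gate. -/
def Circuit.size {n : ℕ} (C : Circuit n) : ℕ := C.bottom.card + C.middle.card + 1

/-- The circuit computes the Boolean function `f`. -/
def Circuit.Computes {n : ℕ} (C : Circuit n) (f : (Fin n → Bool) → Bool) : Prop :=
  ∀ x, C.eval x ↔ f x = true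

end Vale.Agent.Lib.P336
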