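import Mathlib
import Vale.Agent.Lib.P336.Defs

namespace Vale.Agent.Lib.P336

open Finset

variable {n : ℕ}

/-- A code for a circuit with `b` bottom gates and `m` middle gates: the list of bottom gates
and, for each middle gate, the indicator of the bottom gates it reads. -/
abbrev Code (n b m : ℕ) := (Fin b → Finset (Fin n × Bool)) × (Fin m → Fin b → Bool)

open Classical in
/-- The Boolean function computed by a code. -/
noncomputable def decode {b m : ℕ} (c : Code n b m) : (Fin n → Bool) → Bool :=
  fun x => decide (∃ j : Fin m, ∀ i : Fin b, c.2 j i = true → ∃ l ∈ c.1 i, x l.1 = l.2)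

theorem card_code (n b m : ℕ) : Fintype.card (Code n b m) = 2 ^ (2 * n * b + b * m) := by
  simp only [Code, Fintype.card_prod, Fintype.card_fun, Fintype.card_finset, Fintype.card_fin,
    Fintype.card_bool]
  rw [← pow_mul, ← pow_mul, ← pow_add]
  congr 1
  ring

/-- Every function computed by a circuit is computed by a code of the same shape. -/
theorem exists_code (C : Circuit n) (f : (Fin n → Bool) → Bool) (hC : C.Computes f) :
    ∃ c : Code n C.bottom.card C.middle.card, decode c = f := by
  classical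
  let e := C.bottom.equivFin.symm
  let e' := C.middle.equivFin.symm
  refine ⟨(fun i => (e i).1, fun j i => decide ((e i).1 ∈ (e' j).1)), ?_⟩
  funext x
  have hx := hC x
  unfold Circuit.eval at hx
  by_cases hfx : f x = true
  · rw [hfx]
    unfold decode
    rw [decide_eq_true_iff]
    obtain ⟨m, hm, hall⟩ := hx.mpr hfx
    refine ⟨e'.symm ⟨m, hm⟩, fun i hi => ?_⟩
    simp only [decide_eq_true_iff, Equiv.apply_symm_apply] at hi
    exact hall _ hi
  · have hfx' : f x = false := by simpa using hfx
    rw [hfx']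
    unfold decode
    rw [decide_eq_false_iff_not]
    rintro ⟨j, hj⟩
    apply hfx
    apply hx.mp
    refine ⟨(e' j).1, (e' j).2, fun c hc => ?_⟩
    have hcb : c ∈ C.bottom := C.wired _ (e' j).2 hc
    have := hj (e.symm ⟨c, hcb⟩)
    simp only [decide_eq_true_iff, Equiv.apply_symm_apply] at this
    exact this hc

/-- Arithmetic: a circuit shape below the threshold has few codes. -/
theorem shape_bound (n b m : ℕ) (h : (b + m + 1 + 2 * n + 1) ^ 2 ≤ 2 ^ (n + 2)) :
    b < 2 ^ n ∧ m < 2 ^ n ∧ 2 * n * b + b * m + (2 * n + 1) ≤ 2 ^ n := by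
  have hpow : 2 ^ (n + 2) = 4 * 2 ^ n := by rw [pow_add]; ring
  rw [hpow] at h
  generalize 2 ^ n = P at h ⊢
  refine ⟨?_, ?_, ?_⟩
  · by_contra hb
    push Not at hb
    have h1 : (P + 2) ^ 2 ≤ (b + m + 1 + 2 * n + 1) ^ 2 := Nat.pow_le_pow_left (by omega) 2
    nlinarith
  · by_contra hm
    push Not at hm
    have h1 : (P + 2) ^ 2 ≤ (b + m + 1 + 2 * n + 1) ^ 2 := Nat.pow_le_pow_left (by omega) 2
    nlinarith
  · have h1 : 4 * (b * (2 * n + m)) ≤ (b + (2 * n + m)) ^ 2 := by
      nlinarith [sq_nonneg ((b : ℤ) - (2 * n + m)), four_mul_le_sq_add b (2 * n + m)]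
    have h2 : (b + m + 1 + 2 * n + 1) ^ 2 = (b + (2 * n + m)) ^ 2 + 4 * (b + (2 * n + m)) + 4 := by
      ring
    nlinarith

/-- Counting: for every `n` some Boolean function of `n` variables is computed only by
OR-AND-OR circuits whose number of gates `s` satisfies `(s + 2 n + 1) ^ 2 > 2 ^ (n + 2)`. -/
theorem exists_hard (n : ℕ) :
    ∃ f : (Fin n → Bool) → Bool, ∀ C : Circuit n, C.Computes f →
      2 ^ (n + 2) < (C.size + 2 * n + 1) ^ 2 := by
  classical
  by_contra hcon
  push Not at hcon
  -- the set of shapes below the threshold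
  let valid : Finset (ℕ × ℕ) := (Finset.range (2 ^ n) ×ˢ Finset.range (2 ^ n)).filter
    (fun p => (p.1 + p.2 + 1 + 2 * n + 1) ^ 2 ≤ 2 ^ (n + 2))
  have hcover : (Finset.univ : Finset ((Fin n → Bool) → Bool)) ⊆
      valid.biUnion (fun p => Finset.univ.image (decode (n := n) (b := p.1) (m := p.2))) := by
    intro f _
    obtain ⟨C, hC, hsize⟩ := hcon f
    unfold Circuit.size at hsize
    obtain ⟨hb, hm, -⟩ := shape_bound n _ _ hsize
    obtain ⟨c, hc⟩ := exists_code C f hC
    rw [Finset.mem_biUnion]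
    refine ⟨(C.bottom.card, C.middle.card), ?_, ?_⟩
    · rw [Finset.mem_filter, Finset.mem_product, Finset.mem_range, Finset.mem_range]
      exact ⟨⟨hb, hm⟩, hsize⟩
    · rw [Finset.mem_image]
      exact ⟨c, Finset.mem_univ _, hc⟩
  have h1 := Finset.card_le_card hcover
  have h2 := h1.trans Finset.card_biUnion_le
  rw [Finset.card_univ] at h2
  have hcardf : Fintype.card ((Fin n → Bool) → Bool) = 2 ^ 2 ^ n := by
    simp
  rw [hcardf] at h2
  have hn : 2 * n + 1 ≤ 2 ^ n ∨ valid = ∅ := by
    by_cases hv : valid = ∅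
    · exact Or.inr hv
    · left
      obtain ⟨p, hp⟩ := Finset.nonempty_iff_ne_empty.mpr hv
      rw [Finset.mem_filter] at hp
      have := (shape_bound n _ _ hp.2).2.2
      omega
  rcases hn with hn | hv
  · have h3 : ∀ p ∈ valid, (Finset.univ.image (decode (n := n) (b := p.1) (m := p.2))).card ≤
        2 ^ (2 ^ n - (2 * n + 1)) := by
      intro p hp
      refine Finset.card_image_le.trans ?_
      rw [Finset.card_univ, card_code]
      rw [Finset.mem_filter] at hp
      have := (shape_bound n _ _ hp.2).2.2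
      exact Nat.pow_le_pow_right (by norm_num) (by omega)
    have h4 := Finset.sum_le_card_nsmul valid _ _ h3
    have h5 : valid.card ≤ 2 ^ n * 2 ^ n := by
      refine (Finset.card_filter_le _ _).trans ?_
      rw [Finset.card_product, Finset.card_range]
    have h6 : 2 ^ 2 ^ n ≤ 2 ^ n * 2 ^ n * 2 ^ (2 ^ n - (2 * n + 1)) := by
      refine h2.trans (h4.trans ?_)
      rw [smul_eq_mul]
      exact Nat.mul_le_mul_right _ h5
    have h7 : 2 ^ n * 2 ^ n * 2 ^ (2 ^ n - (2 * n + 1)) = 2 ^ (2 ^ n - 1) := by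
      rw [← pow_add, ← pow_add]
      congr 1
      omega
    rw [h7] at h6
    have h8 : 2 ^ (2 ^ n - 1) < 2 ^ 2 ^ n :=
      Nat.pow_lt_pow_right (by norm_num) (by have := Nat.one_le_two_pow (n := n); omega)
    omega
  · rw [hv] at h2
    simp at h2

end Vale.Agent.Lib.P336
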