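import Mathlib
import Vale.Agent.Lib.P336.Defs

namespace Vale.Agent.Lib.P336

open Finset

variable {n : ℕ}

/-- Glue an assignment of the variables in `U` and an assignment of the other variables. -/
def glue (U : Finset (Fin n)) (a : U → Bool) (w : (Uᶜ : Finset (Fin n)) → Bool) :
    Fin n → Bool :=
  fun i => if hi : i ∈ U then a ⟨i, hi⟩ else w ⟨i, Finset.mem_compl.mpr hi⟩

/-- The clause over the variables outside `U` which is false exactly when these variables
agree with `w`. -/
def fullClause (U : Finset (Fin n)) (w : (Uᶜ : Finset (Fin n)) → Bool) :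
    Finset (Fin n × Bool) :=
  (Uᶜ : Finset (Fin n)).attach.image (fun j => (j.1, !w j))

open Classical in
/-- The middle gate testing that the variables in `U` agree with `a` and that the remaining
variables avoid every `w` with `f (glue U a w) = false`. -/
noncomputable def gate (U : Finset (Fin n)) (f : (Fin n → Bool) → Bool) (a : U → Bool) :
    Finset (Finset (Fin n × Bool)) :=
  U.attach.image (fun i => {(i.1, a i)}) ∪
    (Finset.univ.filter (fun w => f (glue U a w) = false)).image (fullClause U)

open Classical in
/-- The Lupanov-type circuit for `f` with respect to the splitting `U`, `Uᶜ` of the variables. -/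
noncomputable def lupanov (U : Finset (Fin n)) (f : (Fin n → Bool) → Bool) : Circuit n where
  bottom := (U ×ˢ (Finset.univ : Finset Bool)).image (fun p => {(p.1, p.2)}) ∪
    Finset.univ.image (fullClause U)
  middle := Finset.univ.image (gate U f)
  wired := by
    intro m hm
    rw [Finset.mem_image] at hm
    obtain ⟨a, -, rfl⟩ := hm
    intro c hc
    rw [gate, Finset.mem_union] at hc
    rw [Finset.mem_union]
    rcases hc with hc | hc
    · left
      rw [Finset.mem_image] at hc ⊢
      obtain ⟨i, -, rfl⟩ := hc
      exact ⟨(i.1, a i), by simp, rfl⟩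
    · right
      rw [Finset.mem_image] at hc ⊢
      obtain ⟨w, -, rfl⟩ := hc
      exact ⟨w, Finset.mem_univ _, rfl⟩

theorem fullClause_true_iff (U : Finset (Fin n)) (w : (Uᶜ : Finset (Fin n)) → Bool)
    (x : Fin n → Bool) :
    (∃ l ∈ fullClause U w, x l.1 = l.2) ↔ ∃ j : (Uᶜ : Finset (Fin n)), x j.1 ≠ w j := by
  constructor
  · rintro ⟨l, hl, hx⟩
    rw [fullClause, Finset.mem_image] at hl
    obtain ⟨j, -, rfl⟩ := hl
    refine ⟨j, ?_⟩
    simp only at hx
    rw [hx]
    cases w j <;> simp
  · rintro ⟨j, hj⟩
    refine ⟨(j.1, !w j), ?_, ?_⟩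
    · rw [fullClause, Finset.mem_image]
      exact ⟨j, Finset.mem_attach _ _, rfl⟩
    · simp only
      revert hj
      cases x j.1 <;> cases w j <;> simp

theorem glue_self (U : Finset (Fin n)) (x : Fin n → Bool) :
    glue U (fun i => x i.1) (fun j => x j.1) = x := by
  funext i
  unfold glue
  split <;> rfl

theorem lupanov_computes (U : Finset (Fin n)) (f : (Fin n → Bool) → Bool) :
    (lupanov U f).Computes f := by
  classical
  intro x
  unfold Circuit.eval
  constructor
  · rintro ⟨m, hm, hall⟩
    simp only [lupanov, Finset.mem_image, Finset.mem_univ, true_and] at hm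
    obtain ⟨a, rfl⟩ := hm
    have ha : a = fun i => x i.1 := by
      funext i
      have hmem : ({(i.1, a i)} : Finset (Fin n × Bool)) ∈ gate U f a := by
        rw [gate, Finset.mem_union]
        left
        rw [Finset.mem_image]
        exact ⟨i, Finset.mem_attach _ _, rfl⟩
      obtain ⟨l, hl, hx⟩ := hall _ hmem
      rw [Finset.mem_singleton] at hl
      rw [hl] at hx
      exact hx.symm
    by_contra hfx
    have hfx' : f x = false := by simpa using hfx
    have hmem : fullClause U (fun j => x j.1) ∈ gate U f a := by
      rw [gate, Finset.mem_union]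
      right
      rw [Finset.mem_image]
      refine ⟨fun j => x j.1, ?_, rfl⟩
      rw [Finset.mem_filter]
      refine ⟨Finset.mem_univ _, ?_⟩
      rw [ha, glue_self]
      exact hfx'
    obtain ⟨j, hj⟩ := (fullClause_true_iff U _ x).mp (hall _ hmem)
    exact hj rfl
  · intro hfx
    refine ⟨gate U f (fun i => x i.1), ?_, ?_⟩
    · simp only [lupanov, Finset.mem_image, Finset.mem_univ, true_and]
      exact ⟨_, rfl⟩
    · intro c hc
      rw [gate, Finset.mem_union] at hc
      rcases hc with hc | hc
      · rw [Finset.mem_image] at hc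
        obtain ⟨i, -, rfl⟩ := hc
        exact ⟨(i.1, x i.1), Finset.mem_singleton_self _, rfl⟩
      · rw [Finset.mem_image] at hc
        obtain ⟨w, hw, rfl⟩ := hc
        rw [Finset.mem_filter] at hw
        rw [fullClause_true_iff]
        by_contra hcon
        push Not at hcon
        have hw' : w = fun j => x j.1 := by
          funext j
          exact (hcon j).symm
        rw [hw', glue_self, hfx] at hw
        exact Bool.noConfusion hw.2

theorem lupanov_size_le (U : Finset (Fin n)) (f : (Fin n → Bool) → Bool) :
    (lupanov U f).size ≤ 2 ^ U.card + 2 ^ (n - U.card) + 2 * U.card + 1 := by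
  classical
  unfold Circuit.size
  have h1 : (lupanov U f).bottom.card ≤ 2 * U.card + 2 ^ (n - U.card) := by
    simp only [lupanov]
    refine (Finset.card_union_le _ _).trans ?_
    refine Nat.add_le_add ?_ ?_
    · refine Finset.card_image_le.trans ?_
      rw [Finset.card_product]
      simp [mul_comm]
    · refine Finset.card_image_le.trans ?_
      rw [Finset.card_univ]
      simp
  have h2 : (lupanov U f).middle.card ≤ 2 ^ U.card := by
    simp only [lupanov]
    refine Finset.card_image_le.trans ?_
    rw [Finset.card_univ]
    simp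
  omega

/-- Every Boolean function of `n` variables has an OR-AND-OR circuit with at most
`2 ^ ⌈n / 2⌉ + 2 ^ ⌊n / 2⌋ + 2 ⌈n / 2⌉ + 1` gates. -/
theorem exists_circuit_le (n : ℕ) (f : (Fin n → Bool) → Bool) :
    ∃ C : Circuit n, C.Computes f ∧
      C.size ≤ 2 ^ ((n + 1) / 2) + 2 ^ (n / 2) + 2 * ((n + 1) / 2) + 1 := by
  have hle : (n + 1) / 2 ≤ (Finset.univ : Finset (Fin n)).card := by
    rw [Finset.card_univ, Fintype.card_fin]; omega
  obtain ⟨U, -, hU⟩ := Finset.exists_subset_card_eq hle
  refine ⟨lupanov U f, lupanov_computes U f, ?_⟩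
  have h := lupanov_size_le U f
  rw [hU] at h
  have h3 : n - (n + 1) / 2 = n / 2 := by omega
  rw [h3] at h
  exact h

end Vale.Agent.Lib.P336
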